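import Vale.Agent.P352AB.Pub2
import Vale.Agent.P352EF.Pub

namespace Vale.Agent.P352EC

open P352.GF P352AB
open UniformSpace (Completion)

variable {D : Type*} [NormedAddCommGroup D] [InnerProductSpace ℂ D]

/-- **Conformal invariance of a graded theory, with a scalar potential.** `S` is a stress tensor of
dimension four and `L` is a hermitian scalar Bose field of dimension two, both fields of the graded
theory `Q`, and the trace of `S` is `3 □ L`. In `Q` and in all theories obtained from `Q` by adding
local fields, `t = S + (∂∂ - η □) L` is a traceless improvement of `S` whose charges act on all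
fields by the infinitesimal conformal transformations. If the larger theory is graded, they
generate the conformal symmetry, and every field of `Q` is a finite linear combination of
derivatives of conformal primaries. -/
structure ConfG (Q : Theory D) (G : D → D) (S : Ix → Ix → Fld D) (L : Fld D) : Prop where
  gr : Gr Q G
  str : Q.IsStress S
  sca : Q.IsScalar L 2
  tra : ∀ f v, IsTest f → tr S f v = (3 : ℂ) • L (box f) v
  impr : ∀ Q', IsEnl Q Q' → IsImpr Q' S (improve S L)
  kil : ∀ Q' A B, IsEnl Q Q' → Q'.fld A → Q'.fld B → IsAdj A B →
    ∃ M M' K K', Act Q' (improve S L) A B M M' K K'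
  act : ∀ Q', IsEnl Q Q' → Gr Q' G → CAct Q' G (improve S L)
  desc : ∀ Q' B, IsEnl Q Q' → Gr Q' G → Q.fld B → ∃ (n : ℕ) (p : Fin n → Bool) (C : Fin n → Fld D),
    (∀ i, DescS Q' G (improve S L) (p i) (C i)) ∧ ∀ f v, IsTest f → B f v = ∑ i, C i f v

/-- The distribution `φ` with values in the Hilbert space is weakly local relative to the fields:
`⟨X* Ω, φ(f)⟩ = ⟨φ(bar f), X Ω⟩` for all polynomials `X` in the fields in the causal complement of
the support of `f`. -/
structure WLoc (Q : Theory D) (φ : Fn → Completion D) : Prop where
  loc : ∀ f X X', In Set.univ f → Al Q (cc (tsupport f)) X X' →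
    inner ℂ ((X' Q.vac : D) : Completion D) (φ f) =
      inner ℂ (φ (bar f)) ((X Q.vac : D) : Completion D)

end Vale.Agent.P352EC
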