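import Vale.Agent.P352EC.X
import Vale.Agent.P352EC.Pub
import Vale.Agent.P352EF.W

/-!
# P352EC: transfer to the compact vocabulary
-/

set_option linter.all false

namespace Vale.Agent.P352EC

open Vale.Agent.P352 Vale.Agent.P352.GF Vale.Agent.P352AB Vale.Agent.P352EF
open UniformSpace (Completion)

variable {D : Type*} [NormedAddCommGroup D] [InnerProductSpace ℂ D]

lemma act_dn {Q : Theory D} {t : Ix → Ix → Fld D} (h1 : H755.ConfAct Q t) {A B : Fld D}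
    (a : Q.fld A) (b : Q.fld B) (c : IsAdj A B) : ∃ M M' K K', Act Q t A B M M' K K' := by
  obtain ⟨M, M', L, L', h1, h2, h3⟩ := h1 A B a b c
  have e : ∀ x : Ix → D, ((∑ n, x n : D) : Completion D) = ∑ n, (x n : Completion D) := fun x =>
    map_sum (Completion.toComplL : D →L[ℂ] Completion D) x _
  exact ⟨M, M', L, L', fun m n => let r := h1 m n; ⟨r.linf, r.linv, r.cont, r.adj, r.transl, r.loc⟩,
    fun m => let r := h2 m; ⟨r.linf, r.linv, r.cont, r.adj, r.transl, r.loc⟩,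
    fun X f w v p q => ⟨by
      have := h3 X f w v p q.1 q.2.1
      rw [e] at this
      exact this⟩⟩

theorem final (Q : Theory D)
    (G : D → D) (T : Ix → Ix → Fld D) (hT : Stress0 Q T) (A : (V → V) → D → D) (hA : PCh Q T A)
    (J : Ix → Fld D) (hV : Virial0 Q T J A) (hC : ∀ s, 0 < s → Cov Q s one 0)
    (aT : ∀ m n, Asy Q 4 (T m n)) (aJ : ∀ m, Asy Q 3 (J m))
    (Γ : Completion D →L[ℂ] Completion D) (N : Set V → VonNeumannAlgebra (Completion D))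
    (hN : LNg Q G A Γ N) (hU : UVac Q) (hE : EBd Q) (Q₀ : Theory D) (h0 : IsEnl Q₀ Q)
    (hG : Gr Q₀ G) (hM : MfAll Q₀) (hF : ∀ B, Q₀.fld B → Fs Q₀ B) :
    ∃ S Q₁, Q.IsStress S ∧ PCh Q S A ∧ IsEnl Q₀ Q₁ ∧ Q₁.IsStress S ∧
      (∀ B, Q₁.fld B → Q.fld B ∨ B = fun _ _ => 0) ∧
      ∃ (E : Submodule ℂ (Completion D)) (Q' : Theory E) (G' : E → E) (e : Fld D → Fld E)
        (L : Fld E), ExtF Q₁ N Q' e ∧ (∀ v, (G' v : Completion D) = Γ v) ∧
        ConfG Q' G' (fun m n => e (S m n)) L ∧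
        (MfAll Q → WLoc Q fun f => (L f Q'.vac : Completion D)) := by
  let c : P352X.EG.Cg D := ⟨Q, G, A, Γ, N, hN.up⟩
  obtain ⟨S, h1, h2⟩ := P352E.coreG (c := c) hT.up hA.up hV.up hC aT aJ hU hE.up
  obtain ⟨Q₁, a1, a2, a3, l, hl, E, Q', G', e, L, a, b, b1, c1, c2, c3, c4⟩ :=
    ext_sub (c := c) h1 h2 hU hE.up h0.up hG.up (mf_up hM) hF
  refine ⟨S, Q₁, h1, fun X b F B f v w a => h2 F X B f v w a b, ⟨a1.vac, a1.U, a1.fld, a1.bose⟩, a2,
    a3, E, Q', G', e, L, ⟨a.dense, a.vac, a.U, a.fld, a.bos, a.adj, a.agree,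
      fun x y z C C' f p q r s u v => ⟨b x y z C C' f p q r s u v⟩⟩, a.G,
    ⟨⟨a.inv, a.herm, a.bose, a.split, a.anti, a.GU, a.mul⟩, c1, c2, c3,
      fun Q'' n => impr_dn (c4 Q'' n.up).1, fun Q'' A B n p q r => act_dn (c4 Q'' n.up).2.1 p q r,
      fun Q'' n g => let ⟨_, p, q⟩ := c4 Q'' n.up; cact_dn p (q g.up).1 (q g.up).2.1,
      fun Q'' B n g hB => let ⟨m, p, C, q, r⟩ := ((c4 Q'' n.up).2.2 g.up).2.2 B hB
        ⟨m, p, C, fun i => desc_dn (q i), r⟩⟩, fun hM' => ⟨fun f X X' hf hX => ?_⟩⟩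
  beta_reduce
  rw [b1 f hf.1, b1 _ (P352X.Ap.test_bar hf.1)]
  exact P352E.weakG (c := c) hC (mf_up hM') hE.up hl f X X' hf hX.up

end Vale.Agent.P352EC
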