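import Vale.Agent.P352E.W

/-!
# P352EC: the extension of the defining fields of a graded theory
-/

set_option linter.all false

open Filter Topology
open scoped ComplexConjugate

namespace Vale.Agent.P352EC

open Vale.Agent.P352 Vale.Agent.P352.GF Vale.Agent.P352.BW Vale.Agent.P352.H246
open Vale.Agent.P352.H496 Vale.Agent.P352.H755 Vale.Agent.P352.H15
open Vale.Agent.P352.SubConf (IsAdj)
open Vale.Agent.P352X Vale.Agent.P352X.EB Vale.Agent.P352X.EG Vale.Agent.P352X.EG.H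
open Vale.Agent.P352AA Vale.Agent.P352E
open UniformSpace (Completion)

noncomputable section

variable {D : Type*} [NormedAddCommGroup D] [InnerProductSpace ℂ D]

/-- the conclusions about the extension -/
def Out {D' : Type*} [NormedAddCommGroup D'] [InnerProductSpace ℂ D'] (Q' : Theory D')
    (G' : D' → D') (S : Ix → Ix → Fld D') (L : Fld D') : Prop :=
  Q'.IsStress S ∧ Q'.IsScalar L 2 ∧ (∀ f v, IsTest f → tr S f v = (3 : ℂ) • L (box f) v) ∧
    ∀ Q'' : Theory D', IsEnl Q' Q'' → IsImpr Q'' S (improve S L) ∧ ConfAct Q'' (improve S L) ∧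
      (Gr Q'' G' → CFS Q'' G' (improve S L) ∧
        (∀ (p : Bool) k (Φ : Fin k.n → Fld D') a, IsMl Q'' k Φ → (∀ a, Fs Q'' (Φ a)) →
          (∀ a, if p then Fer Q'' G' (Φ a) else Q''.bose (Φ a)) →
          DescS Q'' G' (improve S L) p (Φ a)) ∧
        ∀ B, Q'.fld B → ∃ (n : ℕ) (p : Fin n → Bool) (C : Fin n → Fld D'),
          (∀ i, DescS Q'' G' (improve S L) (p i) (C i)) ∧ ∀ f v, IsTest f → B f v = ∑ i, C i f v)

theorem ext_confG (c : Cg D) {T : Ix → Ix → Fld D} (a1 : c.Q.IsStress T) (a2 : ND.PCh c.Q T c.A)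
    (hG : MfAll c.Q) (hF : FSL c.Q) (hU : UVac c.Q) (hE : EBd c.Q) :
    ∃ l, Pot c T l ∧ ∃ (D' : Submodule ℂ (Completion D)) (Q' : Theory D') (G' : D' → D')
      (e : Fld D → Fld D') (L : Fld D'), ExtG c.Q c.Γ Q' G' e ∧ AfW c.N Q' (↑) ∧
      (∀ f, IsTest f → (L f Q'.vac : Completion D) = l f) ∧
      Out Q' G' (fun m n => e (T m n)) L := by
  have t := EG.e0_thm c
  obtain ⟨l, hl, D', Q', G', e, L, h1, h0, h2, h3, h4, h5, h6⟩ :=
    fin_thm c a1 a2 hF (md t hG) hU hE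
  refine ⟨l, hl, D', Q', G', e, L, h1, h0, h5, h2, h3, h4, fun Q'' n => ?_⟩
  obtain ⟨h7, h8⟩ := scal_row D' Q' _ L h2 h3 h4 Q'' n
  refine ⟨h7, h8, fun g => ?_⟩
  have hT'' := H746.isStress_enl n h2
  have hL'' := scalar_enl n h3
  let M : D' →ₗ[ℂ] D' :=
    { toFun := G'
      map_add' := fun v w => ext_inner_right ℂ fun y => by simp only [g.herm, inner_add_left]
      map_smul' := fun z v => ext_inner_right ℂ fun y => by
        simp only [g.herm, inner_smul_left, RingHom.id_apply] }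
  obtain ⟨S, s1, s2, s3⟩ := hl.mix
  let k : CA.G.Cx D' := ⟨Q'', _, G', isT_of_impr h7 hT'',
    fun m n k l f g v hf hg h => sub_eq_zero.1 (h7.self m n k l f g v hf hg h), h7.cov,
    ⟨_, hT''.bose o o⟩, g.inv, g.herm, fun m n f v hf => by
      show _ = M _
      simp only [improve, map_add, map_sub, map_smul, map_sum, g.bose _ _ v (hT''.bose m n) hf,
        fun k l => g.bose _ _ v hL''.1 (Ap.test_pd k (Ap.test_pd l hf))]
      rfl, g.GU,
    fun C hC => by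
      obtain ⟨C1, C2, a1, a2, e⟩ := g.split C hC
      refine ⟨2, ![1, -1], ![C1, C2], fun j => ?_, fun k v hk => ?_⟩
      · fin_cases j
        exacts [Q''.bose_fld _ a1, a2.1]
      · rw [e k _ hk, g.bose C1 k v a1 hk, a2.2 k v hk, show G' _ = M _ from rfl, map_add, map_neg]
        simp [M, g.inv],
    g.mul, fun F w hF => by
      have hv : (Q''.vac : Completion D) = c.Om := by rw [n.vac]; exact h1.vac
      have b1 : ∀ f, IsTest f → (L f Q''.vac : Completion D) ∈ S := fun f hf => by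
        rw [n.vac, h5 f hf]
        exact s2 f hf
      have b2 : ((smt (improve (fun m n => e (T m n)) L) F Q''.vac : D') : Completion D) ∈ S := by
        simp only [smt, improve, Submodule.coe_sum, Submodule.coe_add, Submodule.coe_sub,
          Submodule.coe_smul]
        refine S.sum_mem fun m _ => S.sum_mem fun n _ => ?_
        have hf := (hF m n).isTest
        refine S.sub_mem (S.add_mem ?_ (S.smul_mem _ (b1 _ (Ap.test_pd _ (Ap.test_pd _ hf)))))
          (S.smul_mem _ (S.sum_mem fun k _ => S.smul_mem _ (b1 _ (Ap.test_pd _ (Ap.test_pd _ hf)))))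
        rw [h1.agree _ _ _ c.Q.vac (c.Q.bose_fld _ (a1.bose m n)) hf hv]
        exact s1 m n _ hf
      have b3 := s3 _ b2 w
      rw [← hv, ← Submodule.coe_inner, ← Submodule.coe_inner] at b3
      refine b3.congr' (eventually_nhdsWithin_of_forall fun r hr => ?_)
      obtain ⟨p1, p2⟩ := CA.lsc_pos hr
      show inner ℂ _ (Ue _ _ _ _ _) = inner ℂ _ (Q''.U _ _ _ _)
      rw [← h1.U _ _ _ _ p1 p2, n.U]
      rfl⟩
  obtain ⟨x, f0, al⟩ := CA.G.all_thm k
  have tl : CA.G.Tl k := fun _ _ => CA.G.clf k g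
  have cf : CFS Q'' G' (improve (fun m n => e (T m n)) L) := CA.G.cfs' al tl
  refine ⟨cf, fun p k Φ μ h1 h2 h3 => CA.G.descM al tl p k Φ μ h2 h1 h3, fun B hB => ?_⟩
  obtain ⟨m, C, hC, h⟩ := h6 B hB
  have key : ∀ i, ∃ p C', DescS Q'' G' (improve (fun m n => e (T m n)) L) p C' ∧
      ∀ f v, IsTest f → C i f v = C' f v := fun i => by
    rcases hC i with h | ⟨p, C', a, b⟩
    · exact ⟨false, L, desc_scal cf hL'', fun _ _ _ => by rw [h]⟩
    · obtain ⟨C'', a1, a2⟩ := desc_cmp t h1 n hF g (CA.G.descM al tl) a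
      exact ⟨p, C'', a1, fun f v hf => (b f v hf).trans (a2 f v hf)⟩
  choose p C' b1 b2 using key
  exact ⟨m, p, C', b1, fun f v hf => (h f v).trans
    (Finset.sum_congr rfl fun i _ => b2 i f v hf)⟩

theorem ext_sub {c : Cg D} {S : Ix → Ix → Fld D} (hS : c.Q.IsStress S) (hP : ND.PCh c.Q S c.A)
    (hU : UVac c.Q) (hE : EBd c.Q) {Q₀ : Theory D} (n₀ : IsEnl Q₀ c.Q) (g₀ : Gr Q₀ c.G)
    (hM : MfAll Q₀) (hF : FSL Q₀) :
    ∃ Q₁, IsEnl Q₀ Q₁ ∧ Q₁.IsStress S ∧ (∀ B, Q₁.fld B → c.Q.fld B ∨ B = fun _ _ => 0) ∧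
      ∃ l, Pot c S l ∧ ∃ (D' : Submodule ℂ (Completion D)) (Q' : Theory D') (G' : D' → D')
        (e : Fld D → Fld D') (L : Fld D'), ExtG Q₁ c.Γ Q' G' e ∧ AfW c.N Q' (↑) ∧
        (∀ f, IsTest f → (L f Q'.vac : Completion D) = l f) ∧
        Out Q' G' (fun m n => e (S m n)) L := by
  have n : IsEnl (zf Q₀) (lc c.Q) := ⟨n₀.vac, n₀.U,
    fun A h => h.elim (fun a => .base (n₀.fld A a)) fun e => e ▸ Fx.Ls.zero,
    fun A h => h.elim (fun a => .base (n₀.bose A a)) fun e => e ▸ Fx.Ls.zero⟩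
  have h := H746.isStress_enl (lc_enl c.Q) hS
  have g := lc_lng c
  have sb : ∀ {B}, (sub n h).bose B → (lc c.Q).bose B := fun hB =>
    hB.elim (n.bose _) fun ⟨m, k, e⟩ => e ▸ h.bose m k
  have z : Fer (sub n h) c.G fun _ _ => 0 :=
    ⟨.inl (.inr rfl), fun _ _ _ => ((congrArg Neg.neg (map_zero (gl c))).trans neg_zero).symm⟩
  let c₀ : Cg D := ⟨sub n h, c.G, c.A, c.Γ, c.N, ⟨g.inv, g.herm,
    fun B f v hB => g.bose B f v (sb hB), by
      rintro B ((hB | rfl) | ⟨m, k, rfl⟩)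
      · obtain ⟨C, C', a, b, e⟩ := g₀.split B hB
        exact ⟨C, C', .inl (.inl a), ⟨.inl (.inl b.1), b.2⟩, e⟩
      · exact ⟨_, _, .inl (.inr rfl), z, fun _ _ _ => (add_zero _).symm⟩
      · exact ⟨_, _, .inr ⟨m, k, rfl⟩, z, fun _ _ _ => (add_zero _).symm⟩,
    fun B C f k v hB hC => g.anti B C f k v ⟨sub_fld n h hB.1, hB.2⟩ ⟨sub_fld n h hC.1, hC.2⟩,
    g.GU, g.mul⟩, g.vac, g.add, g.der, g.ext, fun O B f hB => g.fld O B f (sub_fld n h hB), g.mono,
    g.cov, g.gam, g.loc⟩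
  have hS₀ : c₀.Q.IsStress S := ⟨fun m k => .inr ⟨m, k, rfl⟩, h.symm, h.herm, h.cov, h.conserved,
    fun F k A f v w a b => h.charge F k A f v w a (sub_fld n h b)⟩
  obtain ⟨l, hl, r⟩ := ext_confG c₀ hS₀
    (fun F X B f v w a b d => lc_pch c.hN.der (fun m k => c.Q.bose_fld _ (hS.bose m k)) hP
      F X B f v w a b (sub_fld n h d)) (sub_mf n h (zf_mf hM)) (sub_fsl n h (zf_fsl hF)) hU
    fun B hB => by
      simpa only [en_eq (Q := lc c.Q) (Q' := c₀.Q) rfl] using lc_ebd hE B (sub_fld n h hB)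
  refine ⟨sub n h, ⟨n₀.vac, n₀.U, fun _ a => .inl (.inl a), fun _ a => .inl (.inl a)⟩, hS₀, ?_, l,
    ⟨hl.lin, hl.cont, hl.trace, hl.cov, hl.gam, hl.st, hl.mix⟩, r⟩
  rintro B ((hB | rfl) | ⟨m, k, rfl⟩)
  exacts [.inl (n₀.fld B hB), .inr rfl, .inl (c.Q.bose_fld _ (hS.bose m k))]

end

end Vale.Agent.P352EC
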